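import Mathlib

/-!
# P282A96: the completion of an affine domain of characteristic zero at a point is reduced
-/

open TensorProduct AdicCompletion

noncomputable section

namespace Vale.Agent.P282A96

variable {P A : Type} [CommRing P] [CommRing A] [Algebra P A]

theorem red_tensor [IsDomain P] [CharZero P] [IsDomain A] [FaithfulSMul P A] [Module.Finite P A]
    (Q : Type) [CommRing Q] [IsDomain Q] [Algebra P Q] [Module.Flat P Q] :
    IsReduced (Q ⊗[P] A) := by
  let K := FractionRing P
  let L := FractionRing A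
  let F := FractionRing Q
  let _ : Algebra K L := FractionRing.liftAlgebra P L
  have : IsScalarTower P K L := FractionRing.isScalarTower_liftAlgebra P L
  have : Algebra.IsAlgebraic K L := isAlgebraic_of_isFractionRing (R := P) (S := A) ..
  have : Algebra.FormallyUnramified P K :=
    Algebra.FormallyUnramified.of_isLocalization (nonZeroDivisors P)
  have : Algebra.FormallyUnramified K L := Algebra.FormallyUnramified.of_isSeparable K L
  have : Algebra.FormallyUnramified P L := Algebra.FormallyUnramified.comp P K L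
  have : Algebra.EssFiniteType A L := Algebra.EssFiniteType.of_isLocalization L (nonZeroDivisors A)
  have : Algebra.EssFiniteType P L := Algebra.EssFiniteType.comp P A L
  have : Module.Flat P K := IsLocalization.flat K (nonZeroDivisors P)
  have : Module.Flat P L := Module.Flat.trans P K L
  have : IsReduced (F ⊗[P] L) := Algebra.FormallyUnramified.isReduced_of_field F _
  exact isReduced_of_injective
    (Algebra.TensorProduct.map (IsScalarTower.toAlgHom P Q F) (IsScalarTower.toAlgHom P A L))
    (TensorProduct.map_injective_of_flat_flat' (IsScalarTower.toAlgHom P Q F).toLinearMap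
      (IsScalarTower.toAlgHom P A L).toLinearMap (IsFractionRing.injective Q F)
      (IsFractionRing.injective A L))

theorem ker_ev {m : Ideal A} (hm : m.FG) (n : ℕ) (x : AdicCompletion m A) :
    evalₐ m n x = 0 ↔ x ∈ (m.map (algebraMap A (AdicCompletion m A))) ^ n := by
  rw [← Ideal.map_pow, ← Submodule.restrictScalars_mem A, ← Ideal.smul_top_eq_map,
    pow_smul_top_eq_ker_eval hm, LinearMap.mem_ker]
  constructor
  · intro h
    rw [← factor_evalₐ_eq_eval m x (le_of_eq (Ideal.mul_top _).symm), h, _root_.map_zero]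
  · intro h
    rw [← factor_eval_eq_evalₐ m x (le_of_eq (Ideal.mul_top _)), h, _root_.map_zero]

theorem ev_alg (m : Ideal A) (n : ℕ) (a : A) :
    evalₐ m n (algebraMap A (AdicCompletion m A) a) = Ideal.Quotient.mk _ a :=
  (evalₐ m n).commutes a

theorem dense {m : Ideal A} (hm : m.FG) (n : ℕ) (x : AdicCompletion m A) :
    ∃ a, x - algebraMap A _ a ∈ (m.map (algebraMap A (AdicCompletion m A))) ^ n := by
  obtain ⟨a, ha⟩ := Ideal.Quotient.mk_surjective (evalₐ m n x)
  exact ⟨a, (ker_ev hm n _).1 (by rw [map_sub, ev_alg, ha, sub_self])⟩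

theorem unit_sub {m : Ideal A} (hm : m.FG) {x : AdicCompletion m A}
    (hx : x ∈ m.map (algebraMap A (AdicCompletion m A))) : IsUnit (1 - x) := by
  have := isAdicComplete_self m hm
  have h := Ideal.mem_jacobson_bot.1 (IsAdicComplete.le_jacobson_bot _ hx) (-1)
  rwa [mul_neg_one, neg_add_eq_sub] at h

variable {p : Ideal P} {m : Ideal A}

theorem pow_le (h : p ≤ m.comap (algebraMap P A)) (n : ℕ) :
    p ^ n ≤ (m ^ n).comap (algebraMap P A) :=
  (Ideal.pow_right_mono h n).trans (Ideal.le_comap_pow _ n)

/-- the map between the completions -/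
def iota (h : p ≤ m.comap (algebraMap P A)) : AdicCompletion p P →ₐ[P] AdicCompletion m A :=
  liftAlgHom m (fun n => (Ideal.quotientMapₐ (m ^ n) (Algebra.ofId P A) (pow_le h n)).comp
    (evalₐ p n)) fun {k n} hle => by
      ext x
      induction x using AdicCompletion.induction_on with
      | h r =>
        simp only [AlgHom.comp_apply, evalₐ_mk]
        rw [← Ideal.Quotient.eq.2 (show r n - r k ∈ p ^ k by
          simpa [SModEq.sub_mem] using (r.property hle).symm)]
        rfl

/-- the map from the base change to the completion -/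
def beta (h : p ≤ m.comap (algebraMap P A)) :
    AdicCompletion p P ⊗[P] A →ₐ[P] AdicCompletion m A :=
  Algebra.TensorProduct.productMap (iota h) (IsScalarTower.toAlgHom P A _)

theorem beta_right (h : p ≤ m.comap (algebraMap P A)) (a : A) :
    beta h (Algebra.TensorProduct.includeRight a) = algebraMap A _ a :=
  Algebra.TensorProduct.productMap_right_apply _ _ a

theorem map_le (h : p ≤ m.comap (algebraMap P A)) {C : Type} [CommRing C] [Algebra P C]
    (f : A →ₐ[P] C) : p.map (algebraMap P C) ≤ m.map f :=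
  Ideal.map_le_iff_le_comap.2 fun r hr => by
    rw [Ideal.mem_comap, ← f.commutes]
    exact Ideal.mem_map_of_mem _ (h hr)

theorem beta_surj [IsNoetherianRing P] [Module.Finite P A] [p.IsMaximal] [m.IsMaximal]
    (hm : m.FG) (h : p ≤ m.comap (algebraMap P A)) : Function.Surjective (beta h) := by
  have hp : p.FG := IsNoetherian.noetherian p
  have := isAdicComplete (M := A) hp
  have : IsHausdorff p (AdicCompletion m A) := ⟨fun x hx => ext_evalₐ fun n => by
    have h1 := SModEq.zero.1 (hx n)
    rw [Ideal.smul_top_eq_map, Submodule.restrictScalars_mem, Ideal.map_pow] at h1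
    rw [_root_.map_zero, ker_ev hm]
    exact Ideal.pow_right_mono (map_le h (IsScalarTower.toAlgHom P A _)) n h1⟩
  have hrad : m.map (algebraMap A (AdicCompletion m A))
      ≤ (p.map (algebraMap P (AdicCompletion m A))).radical := by
    rw [Ideal.radical_eq_sInf]
    rintro _ hx
    refine Submodule.mem_sInf.2 fun J ⟨hJ, hJp⟩ => Ideal.map_le_iff_le_comap.2 ?_ hx
    set q := Ideal.comap (algebraMap A (AdicCompletion m A)) J
    have h1 : p ≤ q.comap (algebraMap P A) := fun r hr => by
      rw [Ideal.mem_comap, Ideal.mem_comap, ← IsScalarTower.algebraMap_apply]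
      exact hJ (Ideal.mem_map_of_mem _ hr)
    have h2 : (q.comap (algebraMap P A)).IsMaximal :=
      Ideal.IsMaximal.eq_of_le ‹p.IsMaximal› (Ideal.IsPrime.ne_top inferInstance) h1 ▸ ‹_›
    have h3 : q.IsMaximal := Ideal.isMaximal_of_isIntegral_of_isMaximal_comap (R := P) q h2
    by_contra hne
    obtain ⟨x, hx, y, hy, hxy⟩ := Submodule.mem_sup.1
      ((Ideal.eq_top_iff_one _).1 (h3.coprime_of_ne ‹m.IsMaximal› fun e => hne e.ge))
    refine hJp.ne_top (Ideal.eq_top_of_isUnit_mem J hx ?_)
    rw [eq_sub_of_add_eq hxy, map_sub, map_one]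
    exact unit_sub hm (Ideal.mem_map_of_mem _ hy)
  obtain ⟨s, hs⟩ := Ideal.exists_pow_le_of_le_radical_of_fg hrad (hm.map _)
  let e := (ofTensorProductEquivOfFiniteNoetherian p A).restrictScalars P
  have key : Function.Surjective ((beta h).toLinearMap ∘ₗ e.symm.toLinearMap) := by
    refine surjective_of_mkQ_comp_surjective (I := p) fun y => ?_
    obtain ⟨y, rfl⟩ := Submodule.mkQ_surjective _ y
    obtain ⟨a, ha⟩ := dense hm s y
    refine ⟨e (Algebra.TensorProduct.includeRight (R := P) a), ?_⟩
    simp only [LinearMap.comp_apply, LinearEquiv.coe_coe, LinearEquiv.symm_apply_apply,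
      AlgHom.toLinearMap_apply, beta_right, Submodule.mkQ_apply]
    rw [eq_comm, Submodule.Quotient.eq, Ideal.smul_top_eq_map]
    exact hs ha
  exact Function.Surjective.of_comp (g := e.symm) key

theorem beta_ker (hp : p.FG) (hm : m.FG) (h : p ≤ m.comap (algebraMap P A))
    {b : AdicCompletion p P ⊗[P] A} (hb : beta h b = 0) (n : ℕ) :
    b ∈ (m.map (Algebra.TensorProduct.includeRight (R := P) (A := AdicCompletion p P))) ^ n := by
  set r := Algebra.TensorProduct.includeRight (R := P) (A := AdicCompletion p P) (B := A)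
  have hd : ∀ b, ∃ a, b - r a ∈ (m.map r) ^ n := fun b => by
    induction b with
    | zero => exact ⟨0, by simp⟩
    | add x y hx hy =>
      obtain ⟨a, ha⟩ := hx
      obtain ⟨c, hc⟩ := hy
      exact ⟨a + c, by rw [map_add, add_sub_add_comm]; exact add_mem ha hc⟩
    | tmul q a =>
      obtain ⟨c, hc⟩ := dense hp n q
      refine ⟨c • a, ?_⟩
      let l := Algebra.TensorProduct.includeLeft (R := P) (S := P) (A := AdicCompletion p P)
        (B := A)
      have h1 : l (q - algebraMap P _ c) ∈ (m.map r) ^ n := by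
        have h2 := Ideal.mem_map_of_mem l hc
        rw [Ideal.map_pow] at h2
        refine Ideal.pow_right_mono ?_ n h2
        refine Ideal.map_le_iff_le_comap.2 (Ideal.map_le_iff_le_comap.2 fun t ht => ?_)
        rw [Ideal.mem_comap, Ideal.mem_comap, l.commutes]
        exact map_le h r (Ideal.mem_map_of_mem _ ht)
      convert Ideal.mul_mem_right (r a) _ h1 using 1
      rw [map_sub, l.commutes, sub_mul, map_smul, Algebra.smul_def]
      simp [l, r]
  obtain ⟨a, ha⟩ := hd b
  have h1 := Ideal.mem_map_of_mem (beta h) ha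
  rw [Ideal.map_pow, map_sub, hb, beta_right, zero_sub, neg_mem_iff] at h1
  have h2 : algebraMap A (AdicCompletion m A) a
      ∈ (m.map (algebraMap A (AdicCompletion m A))) ^ n := by
    refine Ideal.pow_right_mono ?_ n h1
    refine Ideal.map_le_iff_le_comap.2 (Ideal.map_le_iff_le_comap.2 fun t ht => ?_)
    rw [Ideal.mem_comap, Ideal.mem_comap, beta_right]
    exact Ideal.mem_map_of_mem _ ht
  rw [← ker_ev hm, ev_alg, Ideal.Quotient.eq_zero_iff_mem] at h2
  have h3 := Ideal.mem_map_of_mem r h2
  rw [Ideal.map_pow] at h3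
  simpa using add_mem ha h3

theorem red_of [IsNoetherianRing P] [Module.Finite P A] [p.IsMaximal] [m.IsMaximal]
    [IsNoetherianRing (AdicCompletion p P)] [IsReduced (AdicCompletion p P ⊗[P] A)]
    (hm : m.FG) (h : p ≤ m.comap (algebraMap P A)) : IsReduced (AdicCompletion m A) := by
  refine ⟨fun x ⟨k, hk⟩ => ?_⟩
  obtain ⟨y, rfl⟩ := beta_surj hm h x
  have : IsNoetherianRing (AdicCompletion p P ⊗[P] A) :=
    Algebra.FiniteType.isNoetherianRing (AdicCompletion p P) _
  obtain ⟨⟨r, hr⟩, h1⟩ := (Ideal.mem_iInf_smul_pow_eq_bot_iff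
    (m.map (Algebra.TensorProduct.includeRight (R := P) (A := AdicCompletion p P))) (y ^ k)).1
    (Submodule.mem_iInf _ |>.2 fun n => by
      rw [smul_eq_mul, Ideal.mul_top]
      exact beta_ker (IsNoetherian.noetherian p) hm h (by rw [map_pow, hk]) n)
  have h2 : (1 - r) * y = 0 := IsReduced.eq_zero _ ⟨k + 1, by
    have h3 : r * y ^ k = y ^ k := h1
    rw [mul_pow]
    linear_combination (-(1 - r) ^ k * y) * h3⟩
  have h3 : beta h r ∈ m.map (algebraMap A (AdicCompletion m A)) := by
    refine Ideal.mem_comap.1 ((Ideal.map_le_iff_le_comap.2 fun t ht => ?_ :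
      _ ≤ Ideal.comap (beta h) _) hr)
    rw [Ideal.mem_comap, Ideal.mem_comap, beta_right]
    exact Ideal.mem_map_of_mem _ ht
  have h4 := congrArg (beta h) h2
  rw [map_mul, map_sub, map_one, _root_.map_zero] at h4
  exact (unit_sub hm h3).mul_right_eq_zero.1 h4

open MvPolynomial in
/-- **Chevalley**: the completion of an affine domain over `ℂ` at a point is reduced -/
theorem chevalley (A : Type) [CommRing A] [IsDomain A] [Algebra ℂ A] [Algebra.FiniteType ℂ A]
    (ev : A →ₐ[ℂ] ℂ) : IsReduced (AdicCompletion (RingHom.ker ev) A) := by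
  obtain ⟨s, g₀, inj₀, fin₀⟩ := exists_finite_inj_algHom_of_fg ℂ A
  let c : Fin s → ℂ := fun i => ev (g₀ (X i))
  let τ : MvPolynomial (Fin s) ℂ →ₐ[ℂ] MvPolynomial (Fin s) ℂ := aeval fun i => X i - C (c i)
  let τ' : MvPolynomial (Fin s) ℂ →ₐ[ℂ] MvPolynomial (Fin s) ℂ := aeval fun i => X i + C (c i)
  have t1 : ∀ x, τ (τ' x) = x := fun x =>
    AlgHom.congr_fun (show τ.comp τ' = AlgHom.id _ _ by ext i : 1; simp [τ, τ']) x
  have t2 : ∀ x, τ' (τ x) = x := fun x =>
    AlgHom.congr_fun (show τ'.comp τ = AlgHom.id _ _ by ext i : 1; simp [τ, τ']) x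
  let g := g₀.comp τ
  have inj : Function.Injective g := inj₀.comp (Function.LeftInverse.injective t2)
  have fin : g.Finite := fin₀.comp (AlgHom.Finite.of_surjective τ
    (Function.RightInverse.surjective t1))
  let _ : Algebra (MvPolynomial (Fin s) ℂ) A := g.toRingHom.toAlgebra
  have : Module.Finite (MvPolynomial (Fin s) ℂ) A := fin
  have : FaithfulSMul (MvPolynomial (Fin s) ℂ) A := (faithfulSMul_iff_algebraMap_injective _ _).2 inj
  have : IsNoetherianRing A := Algebra.FiniteType.isNoetherianRing ℂ A
  have : (RingHom.ker ev).IsMaximal := RingHom.ker_isMaximal_of_surjective ev fun z =>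
    ⟨algebraMap ℂ A z, ev.commutes z⟩
  have h : idealOfVars (Fin s) ℂ ≤ (RingHom.ker ev).comap (algebraMap _ A) := by
    refine Ideal.span_le.2 ?_
    rintro _ ⟨i, rfl⟩
    show ev (g₀ (τ (X i))) = 0
    simp [τ, c]
  have : (idealOfVars (Fin s) ℂ).IsMaximal := by
    have h1 : idealOfVars (Fin s) ℂ = RingHom.ker (constantCoeff (σ := Fin s) (R := ℂ)) := by
      ext x
      rw [← pow_one (idealOfVars _ _), mem_pow_idealOfVars_iff', RingHom.mem_ker]
      simp [constantCoeff_eq, Finsupp.degree_eq_zero_iff]
    rw [h1]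
    exact RingHom.ker_isMaximal_of_surjective _ fun z => ⟨C z, constantCoeff_C _ z⟩
  let e := MvPowerSeries.toAdicCompletionAlgEquiv (Fin s) ℂ
  have := isNoetherianRing_of_ringEquiv _ e.toRingEquiv
  have : IsDomain (MvPowerSeries (Fin s) ℂ) := NoZeroDivisors.to_isDomain _
  have := e.symm.injective.isDomain e.symm.toRingEquiv.toRingHom
  have := red_tensor (P := MvPolynomial (Fin s) ℂ) (A := A)
    (AdicCompletion (idealOfVars (Fin s) ℂ) (MvPolynomial (Fin s) ℂ))
  exact red_of (IsNoetherian.noetherian _) h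

end Vale.Agent.P282A96

end
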