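import Vale.Agent.P282A71.Sk
import Vale.Agent.P277Z.Oka.All
import Vale.Agent.P282A96.Chev

/-!
# P282A96: row RAD
-/

open Filter Topology IsLocalRing MvPolynomial
open Vale.Agent.P298.H941 Vale.Agent.P277Z.Oka

noncomputable section

namespace Vale.Agent.P282A71

namespace R96

variable {N : ℕ}

theorem ana_ev (p : MvPolynomial (Fin N) ℂ) : AnalyticAt ℂ (fun z : Fin N → ℂ => eval z p) 0 :=
  AnalyticOnNhd.eval_mvPolynomial p 0 trivial

theorem pl_eq (p : MvPolynomial (Fin N) ℂ) : pl N p = mk (fun z => eval z p) (ana_ev p) := by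
  induction p using MvPolynomial.induction_on with
  | C a =>
    rw [← algebraMap_eq, AlgHom.commutes]
    exact mk_congr _ _ (.of_forall fun z => by simp)
  | add p q hp hq =>
    rw [map_add, hp, hq, mk_add]
    exact mk_congr _ _ (.of_forall fun z => by simp)
  | mul_X p i hp =>
    rw [map_mul, hp, pl, aeval_X, zc, mk_mul]
    exact mk_congr _ _ (.of_forall fun z => by simp)

theorem nul_ex (I : Ideal (MvPolynomial (Fin N) ℂ)) (f : (Fin N → ℂ) → ℂ)
    (hf : AnalyticAt ℂ f 0) (hv : ∀ᶠ z in 𝓝[locus I] 0, f z = 0) : ∃ k, mk f hf ^ k ∈ ex I := by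
  obtain ⟨n, g, hg⟩ := Submodule.fg_iff_exists_fin_generating_family.1
    (IsNoetherian.noetherian (R := MvPolynomial (Fin N) ℂ) I)
  obtain ⟨k, hk⟩ := nul_all (Fin N → ℂ) (Fin n) 0 (fun i z => eval z (g i))
    (fun i => ana_ev _) f hf (by
      filter_upwards [eventually_nhdsWithin_iff.1 hv] with y hy hz
      refine hy fun p hp => ?_
      rw [← hg] at hp
      refine (Submodule.span_le.2 ?_ : _ ≤ RingHom.ker (eval y)) hp
      rintro _ ⟨i, rfl⟩
      exact hz i)
  refine ⟨k, ?_⟩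
  rw [in_iff (fun i => ana_ev _) (hf.fun_pow k), gm_zero_eq (hf.fun_pow k)] at hk
  refine (Ideal.span_le.2 ?_ : _ ≤ ex I) hk
  rintro _ ⟨i, rfl⟩
  show gm 0 (fun z => eval z (g i)) ∈ ex I
  rw [gm_zero_eq (ana_ev _), ← pl_eq]
  exact Ideal.mem_map_of_mem _ (hg ▸ Submodule.subset_span ⟨i, rfl⟩)

theorem jet_quot {P S : Type} [CommRing P] [CommRing S] [Algebra ℂ P] [Algebra ℂ S]
    {f : P →ₐ[ℂ] S} {m : Ideal P} {n : Ideal S} (h : JetIso f m n) (I : Ideal P) :
    JetIso (Ideal.quotientMapₐ (I.map f) f Ideal.le_comap_map) (m.map (Ideal.Quotient.mk I))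
      (n.map (Ideal.Quotient.mk (I.map f))) where
  mem k x := by
    obtain ⟨p, rfl⟩ := Ideal.Quotient.mk_surjective x
    have key : ∀ v ∈ I.map f, ∃ q ∈ I, v - f q ∈ n ^ k := fun v hv => by
      induction hv using Submodule.span_induction with
      | mem _ hx =>
        obtain ⟨q, hq, rfl⟩ := hx
        exact ⟨q, hq, by simp⟩
      | zero => exact ⟨0, I.zero_mem, by simp⟩
      | add x y _ _ hx hy =>
        obtain ⟨a, ha, h1⟩ := hx
        obtain ⟨b, hb, h2⟩ := hy
        exact ⟨a + b, I.add_mem ha hb, by rw [map_add, add_sub_add_comm]; exact add_mem h1 h2⟩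
      | smul a x _ hx =>
        obtain ⟨q, hq, h1⟩ := hx
        obtain ⟨b, h2⟩ := h.dense k a
        refine ⟨b * q, I.mul_mem_left b hq, ?_⟩
        convert add_mem (Ideal.mul_mem_left _ a h1) (Ideal.mul_mem_right (f q) _ h2) using 1
        rw [map_mul, smul_eq_mul]
        ring
    show Ideal.Quotient.mk (I.map f) (f p) ∈ _ ↔ _
    rw [← Ideal.map_pow, ← Ideal.map_pow, Ideal.mem_quotient_iff_mem_sup,
      Ideal.mem_quotient_iff_mem_sup, Submodule.mem_sup, Submodule.mem_sup]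
    constructor
    · rintro ⟨u, hu, v, hv, e⟩
      obtain ⟨q, hq, h1⟩ := key v hv
      refine ⟨p - q, (h.mem k _).1 ?_, q, hq, sub_add_cancel _ _⟩
      rw [map_sub, ← e, add_sub_assoc]
      exact add_mem hu h1
    · rintro ⟨u, hu, v, hv, rfl⟩
      exact ⟨f u, (h.mem k _).2 hu, f v, Ideal.mem_map_of_mem _ hv, (map_add f u v).symm⟩
  dense k s := by
    obtain ⟨a, rfl⟩ := Ideal.Quotient.mk_surjective s
    obtain ⟨b, hb⟩ := h.dense k a
    refine ⟨Ideal.Quotient.mk I b, ?_⟩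
    rw [← Ideal.map_pow]
    exact Ideal.mem_map_of_mem (Ideal.Quotient.mk (I.map f)) hb

theorem span_X : Ideal.span (Set.range (X : Fin N → MvPolynomial (Fin N) ℂ))
    = RingHom.ker (eval (0 : Fin N → ℂ)) := by
  ext x
  rw [← pow_one (Ideal.span _), RingHom.mem_ker]
  refine (mem_pow_idealOfVars_iff' 1 x).trans ?_
  simp [constantCoeff_eq, Finsupp.degree_eq_zero_iff]

end R96

open R96 in
theorem rad (hJ : JET) (hC : CPL) : RAD := by
  intro N I hI h0 f hf hv
  obtain ⟨k, hk⟩ := nul_ex I f hf hv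
  let ev : (MvPolynomial (Fin N) ℂ ⧸ I) →ₐ[ℂ] ℂ :=
    Ideal.Quotient.liftₐ I (aeval (0 : Fin N → ℂ)) fun p hp => h0 p hp
  have hm : (Ideal.span (Set.range X)).map (Ideal.Quotient.mk I) = RingHom.ker ev := by
    ext x
    obtain ⟨p, rfl⟩ := Ideal.Quotient.mk_surjective x
    rw [span_X, Ideal.mem_quotient_iff_mem fun p hp => h0 p hp]
    rfl
  have hq := jet_quot (hJ N).2 I
  rw [hm] at hq
  obtain ⟨e⟩ := hC _ _ _ _ _ hq
  have := P282A96.chevalley _ ev
  have := isReduced_of_injective e.symm e.symm.injective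
  have : IsNoetherianRing (ON N) := noe _
  have := IsHausdorff.of_le_jacobson
    ((maximalIdeal (ON N)).map (Ideal.Quotient.mk (I.map (pl N)))) (ON N ⧸ I.map (pl N))
    fun x hx => Ideal.mem_jacobson_bot.2 fun y => by
      obtain ⟨a, ha, rfl⟩ := (Ideal.mem_map_iff_of_surjective _ Ideal.Quotient.mk_surjective).1 hx
      obtain ⟨b, rfl⟩ := Ideal.Quotient.mk_surjective y
      simpa using (Ideal.mem_jacobson_bot.1 (maximalIdeal_le_jacobson _ ha) b).map
        (Ideal.Quotient.mk (I.map (pl N)))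
  have : IsReduced (ON N ⧸ I.map (pl N)) := isReduced_of_injective
    (algebraMap _ (AdicCompletion ((maximalIdeal (ON N)).map (Ideal.Quotient.mk (I.map (pl N))))
      (ON N ⧸ I.map (pl N)))) (AdicCompletion.of_injective _ _)
  exact Ideal.Quotient.eq_zero_iff_mem.1 (this.eq_zero _
    ⟨k, (map_pow (Ideal.Quotient.mk (I.map (pl N))) _ k).symm.trans
      (Ideal.Quotient.eq_zero_iff_mem.2 hk)⟩)

end Vale.Agent.P282A71

end
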